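import Vale.Agent.P203.KK.Main
import Vale.Agent.P203.Fold.Key

/-! P203, block KK: `KKStmt` for every cohomology system, and the base key system. -/

set_option linter.all false

namespace Vale.Agent.P203.KK

open Vale.Agent.P203 Vale.Agent.P203.Mod Vale.Agent.P203.Cox

variable {S C X Λ : Type} [Fintype S] [DecidableEq S] [DecidableEq C] [Fintype X] [DecidableEq X]
  [Fintype Λ] [DecidableEq Λ] {k : Type} [Field k]
variable {Γ : FGraph C X Λ} {M : CoxeterMatrix S} {col : S → C}

/-- the field `KK` holds for every cohomology system -/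
theorem kkStmt (w : Mod.Weights Γ col M) {H : ArtinGroup M → ℤ → PMod k Γ}
    (hH : Fold.IsHSys M Γ col H) : Fold.KKStmt (Fold.keyData w H) := by
  intro T n ρ a hT hcl hD hconn hnn x hx u hu t ht κ hκ hy h1 h2
  exact KK_main w hH T n ρ a hT hcl hD hconn hnn x hx u hu t ht κ hκ hy h1 h2

/-- existence of a base key system, from the algebra -/
theorem exists_base (w : Mod.Weights Γ col M) (hF : Fold.Framed Γ col)
    (hA : Fold.AlgMain k M Γ col) (g : ArtinGroup M) :
    ∃ K : Spec.KeySys M, Spec.IsBase K.toKeyData g :=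
  Fold.exists_base w hF hA (fun _ hH => kkStmt w hH) g

end Vale.Agent.P203.KK
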