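import Vale.Agent.P203.KK.Weight

/-! P203, KK-MOD, part 3: the dimension vector of `C_ω V` from below (L1). -/

set_option linter.all false

namespace Vale.Agent.P203.KK

open Vale.Agent.P203.Mod Vale.Agent.P203.Mod.PMod Vale.Agent.P203.Cox Module

variable {S X Λ : Type} [Fintype X] [DecidableEq X] [Fintype Λ] [DecidableEq Λ] [DecidableEq S]
variable {k : Type} [Field k] {Γ : FGraph S X Λ}
variable {B : Type} [Fintype B] [DecidableEq B] {M : CoxeterMatrix B} {c : B → S} {η : X → ℝ}

/-- vector with coordinates `f j`, `j ∈ T` -/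
noncomputable def vec (T : Finset B) (f : B → ℝ) : VSp B := ∑ j ∈ T, Finsupp.single j (f j)

theorem vec_apply {T : Finset B} (f : B → ℝ) {t : B} (ht : t ∈ T) : vec T f t = f t := by
  unfold vec
  rw [Finsupp.finsetSum_apply, Finset.sum_eq_single t]
  · simp
  · intro k _ hk; rw [Finsupp.single_eq_of_ne (Ne.symm hk)]
  · intro h; exact absurd ht h

theorem vec_supp (T : Finset B) (f : B → ℝ) : Apt.Supp T (vec T f) := fun i hi => by
  unfold vec
  rw [Finsupp.finsetSum_apply]
  refine Finset.sum_eq_zero fun k hk => ?_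
  have : i ≠ k := by rintro rfl; exact hi hk
  rw [Finsupp.single_eq_of_ne this]

variable (c η) in
/-- weighted dimension of `V` over the colour `c t` -/
noncomputable def wd (V : PMod k Γ) (t : B) : ℝ :=
  ws Γ η (fun x => (finrank k (V.V x) : ℝ)) (c t)

variable (c η) in
/-- weighted dimension of the kernels of `j` over the colour `c t` -/
noncomputable def wker (V : PMod k Γ) (t : B) : ℝ :=
  ws Γ η (fun x => (finrank k (LinearMap.ker (V.j x)) : ℝ)) (c t)

variable (c η) in
/-- weighted number of edges to the outside of `T` -/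
noncomputable def wout (T : Finset B) (V : PMod k Γ) (t : B) : ℝ :=
  out Γ c T η (fun x => (finrank k (V.V x) : ℝ)) t

theorem wker_nonneg (hw : Weights Γ M c η) (V : PMod k Γ) (t : B) : 0 ≤ wker c η V t :=
  ws_nonneg hw.pos (fun _ => Nat.cast_nonneg _) _

theorem wd_C_of_ne (hw : Weights Γ M c η) (V : PMod k Γ) {s t : B} (h : t ≠ s) :
    wd c η (C (c s) V) t = wd c η V t := by
  unfold wd
  refine ws_congr fun x hx => ?_
  rw [finrank_C_of_ne]
  intro h'
  exact h (hw.inj (hx.symm.trans h'))

theorem wout_C (V : PMod k Γ) {T : Finset B} {s : B} (hs : s ∈ T) (r : B) :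
    wout c η T (C (c s) V) r = wout c η T V r := by
  unfold wout out
  refine ws_congr fun x _ => ?_
  refine Finset.sum_congr rfl fun p _ => ?_
  split_ifs with h
  · rfl
  · beta_reduce
    rw [finrank_C_of_ne]
    intro h'
    exact h ⟨s, hs, h'⟩

theorem wd_C (hw : Weights Γ M c η) {V : PMod k Γ} (hV : FD V) {T : Finset B} {s : B}
    (hs : s ∈ T) : wd c η (C (c s) V) s + wd c η V s =
      wout c η T V s + ∑ t ∈ T.erase s, - gram M s t * wd c η V t + wker c η V s := by
  have h1 := ws_nb hw hs (fun x => (finrank k (V.V x) : ℝ))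
  unfold wout wd wker
  rw [← h1, ← ws_add, ← ws_add]
  refine ws_congr fun x hx => ?_
  have h2 := finrank_C_of_eq hV hx
  rw [finrank_N hV] at h2
  exact_mod_cast h2

/-- the dimension vector of `C_s V` (relative to the thresholds `ρ`) -/
theorem vec_C (hw : Weights Γ M c η) {V : PMod k Γ} (hV : FD V) {T : Finset B} {s : B}
    (hs : s ∈ T) (ρ : B → ℝ) (cs : CoxeterSystem M (M.Group)) :
    vec T (fun t => wd c η (C (c s) V) t - ρ t) =
      act cs (cs.simple s) (vec T (fun t => wd c η V t - ρ t)) +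
      (wout c η T V s - ∑ t ∈ T, gram M s t * ρ t + wker c η V s) • Finsupp.single s 1 := by
  rw [act_simple, Apt.form_single_left (vec_supp T _)]
  have e : ∑ j ∈ T, gram M s j * vec T (fun t => wd c η V t - ρ t) j =
      ∑ j ∈ T, gram M s j * wd c η V j - ∑ j ∈ T, gram M s j * ρ j := by
    rw [← Finset.sum_sub_distrib]
    refine Finset.sum_congr rfl fun j hj => ?_
    rw [vec_apply _ hj]; ring
  rw [e]
  have e2 : ∑ j ∈ T, gram M s j * wd c η V j =
      2 * wd c η V s + ∑ j ∈ T.erase s, gram M s j * wd c η V j := by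
    rw [← Finset.add_sum_erase T _ hs, gram_self]
  have e3 := wd_C hw hV (T := T) hs
  have e4 : ∑ t ∈ T.erase s, - gram M s t * wd c η V t =
      - ∑ j ∈ T.erase s, gram M s j * wd c η V j := by
    rw [← Finset.sum_neg_distrib]
    exact Finset.sum_congr rfl fun _ _ => by ring
  rw [e4] at e3
  ext j
  simp only [Finsupp.coe_add, Finsupp.coe_sub, Finsupp.coe_smul, Pi.add_apply, Pi.sub_apply,
    Pi.smul_apply, smul_eq_mul]
  by_cases hj : j ∈ T
  · rw [vec_apply _ hj, vec_apply _ hj]
    by_cases hjs : j = s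
    · subst hjs
      rw [Finsupp.single_eq_same, e2]
      linarith
    · rw [Finsupp.single_eq_of_ne hjs, wd_C_of_ne hw V hjs]
      ring
  · have hjs : j ≠ s := by rintro rfl; exact hj hs
    rw [vec_supp T _ j hj, vec_supp T _ j hj, Finsupp.single_eq_of_ne hjs]
    ring

variable {cs : CoxeterSystem M (M.Group)}

/-- the tail of a reduced word -/
theorem isReduced_tail {s : B} {ω : List B} (h : cs.IsReduced (s :: ω)) : cs.IsReduced ω := by
  have := h.drop 1
  simpa using this

theorem length_tail_lt {s : B} {ω : List B} (h : cs.IsReduced (s :: ω)) :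
    cs.length (cs.wordProd ω)⁻¹ < cs.length ((cs.wordProd ω)⁻¹ * cs.simple s) := by
  have h1 : cs.length (cs.wordProd (s :: ω)) = (s :: ω).length := h
  have h2 : cs.length (cs.wordProd ω) = ω.length := isReduced_tail h
  have h3 : (cs.wordProd ω)⁻¹ * cs.simple s = (cs.wordProd (s :: ω))⁻¹ := by
    rw [cs.wordProd_cons, mul_inv_rev, cs.inv_simple]
  rw [h3, cs.length_inv, cs.length_inv, h1, h2, List.length_cons]
  omega

/-- (L1), without submodule -/
theorem vec_Cw_ge (hw : Weights Γ M c η) {T : Finset B} (ρ : B → ℝ) (ω : List B) :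
    ∀ {V : PMod k Γ}, FD V → (∀ r ∈ T, ∑ t ∈ T, gram M r t * ρ t ≤ wout c η T V r) →
      (∀ s ∈ ω, s ∈ T) → cs.IsReduced ω →
      NN (vec T (fun t => wd c η (Cw c ω V) t - ρ t) -
        act cs (cs.wordProd ω)⁻¹ (vec T (fun t => wd c η V t - ρ t))) := by
  induction ω with
  | nil =>
    intro V _ _ _ _
    rw [Cw_nil, cs.wordProd_nil, inv_one, act_one_apply, sub_self]
    intro i
    simp
  | cons s ω ih =>
    intro V hV hslack hω hred
    have hs : s ∈ T := hω s (by simp)
    have hκ : 0 ≤ wout c η T V s - ∑ t ∈ T, gram M s t * ρ t + wker c η V s := by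
      have := hslack s hs
      have := wker_nonneg hw V s
      linarith
    have h1 := ih (hV.C (c s)) (fun r hr => by rw [wout_C V hs]; exact hslack r hr)
      (fun t ht => hω t (by simp [ht])) (isReduced_tail hred)
    rw [vec_C hw hV hs ρ cs, map_add, map_smul, ← act_mul_apply] at h1
    have h3 : (cs.wordProd ω)⁻¹ * cs.simple s = (cs.wordProd (s :: ω))⁻¹ := by
      rw [cs.wordProd_cons, mul_inv_rev, cs.inv_simple]
    rw [h3] at h1
    have h2 : NN (act cs (cs.wordProd ω)⁻¹ (Finsupp.single s 1)) :=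
      length_lt_iff_NN.1 (length_tail_lt hred)
    have h4 := h1.add (h2.smul hκ)
    rw [Cw_cons]
    have e : ∀ a b d : VSp B, a - (b + d) + d = a - b := fun a b d => by abel
    rwa [e] at h4

theorem wout_quot {V : PMod k Γ} {T : Finset B} (E : Sub V)
    (hE : E.Supp (fun s => ∃ t ∈ T, s = c t)) (r : B) :
    wout c η T E.quot r = wout c η T V r := by
  unfold wout out
  refine ws_congr fun x _ => ?_
  refine Finset.sum_congr rfl fun p _ => ?_
  split_ifs with h
  · rfl
  · have h1 := hE p.1.1 (fun ⟨t, ht, h'⟩ => h ⟨t, ht, h'⟩)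
    have h2 : finrank k (E.quot.V p.1.1) = finrank k (V.V p.1.1) :=
      (Submodule.quotEquivOfEqBot (E.E p.1.1) h1).finrank_eq
    beta_reduce
    rw [h2]

variable (c η) in
/-- weighted dimension of a submodule -/
noncomputable def wsub {V : PMod k Γ} (E : Sub V) (t : B) : ℝ :=
  ws Γ η (fun x => (finrank k (E.E x) : ℝ)) (c t)

theorem wd_quot {V : PMod k Γ} (hV : FD V) (E : Sub V) (t : B) :
    wd c η E.quot t + wsub c η E t = wd c η V t := by
  unfold wd wsub
  rw [← ws_add]
  refine ws_congr fun x _ => ?_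
  exact_mod_cast E.finrank_quot hV x

theorem wd_Cw_le (hw : Weights Γ M c η) {V W : PMod k Γ} (hV : FD V) (ω : List B)
    (h : ∃ f : Hom V W, f.Surj) (t : B) : wd c η (Cw c ω W) t ≤ wd c η (Cw c ω V) t :=
  ws_le hw.pos fun x _ => by exact_mod_cast Cw_finrank_le c hV ω h x

/-- (L1) -/
theorem lower_bound (hw : Weights Γ M c η) {T : Finset B} (ρ : B → ℝ) {ω : List B}
    {V : PMod k Γ} (hV : FD V) (hslack : ∀ r ∈ T, ∑ t ∈ T, gram M r t * ρ t ≤ wout c η T V r)
    (hω : ∀ s ∈ ω, s ∈ T) (hred : cs.IsReduced ω) (E : Sub V)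
    (hE : E.Supp (fun s => ∃ t ∈ T, s = c t)) {t : B} (ht : t ∈ T) :
    (act cs (cs.wordProd ω)⁻¹ (vec T (fun t => wd c η V t - ρ t - wsub c η E t))) t ≤
      wd c η (Cw c ω V) t - ρ t := by
  have h1 := vec_Cw_ge (cs := cs) hw ρ ω (E.fd_quot hV)
    (fun r hr => by rw [wout_quot E hE]; exact hslack r hr) hω hred t
  rw [Finsupp.sub_apply, vec_apply _ ht] at h1
  have h2 : vec T (fun t => wd c η E.quot t - ρ t) =
      vec T (fun t => wd c η V t - ρ t - wsub c η E t) := by
    unfold vec
    refine Finset.sum_congr rfl fun j _ => ?_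
    have := wd_quot (c := c) (η := η) hV E j
    congr 1
    linarith
  rw [h2] at h1
  have h3 := wd_Cw_le hw hV ω ⟨E.proj, E.proj_surj⟩ t
  linarith

end Vale.Agent.P203.KK
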