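import Vale.Agent.P203.KK.Rad
import Vale.Agent.P203.KKR.Root
import Vale.Agent.P203.Fold.Sys
import Vale.Agent.P203.Fold.Base

/-! P203, block KK: the field `KK` of `KeySys`, from the module lemmas (L1)-(L3) and the root
lemmas (R0)-(R2). -/

set_option linter.all false

namespace Vale.Agent.P203.KK

open Vale.Agent.P203 Vale.Agent.P203.Mod Vale.Agent.P203.Mod.PMod Vale.Agent.P203.Cox Module

variable {S C X Λ : Type} [Fintype S] [DecidableEq S] [DecidableEq C] [Fintype X] [DecidableEq X]
  [Fintype Λ] [DecidableEq Λ] {k : Type} [Field k]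
variable {Γ : FGraph C X Λ} {M : CoxeterMatrix S} {col : S → C}

/-- the two notions of weights -/
theorem of_fold (w : Mod.Weights Γ col M) : Weights Γ M col w.η where
  inj := w.inj
  pos := w.pos
  eig s t hst y hy := by
    rw [← w.eig s t hst y hy,
      sum_Nb (Γ := Γ) (fun x _ => if Γ.π x = col s then w.η x else 0) y]
    refine Finset.sum_congr rfl fun x _ => Finset.sum_congr rfl fun l _ => ?_
    by_cases h : Γ.adj x y l = true
    · rw [if_pos (Γ.symm h)]
      by_cases h' : Γ.π x = col s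
      · rw [if_pos h', if_pos ⟨h', h⟩]
      · rw [if_neg h', if_neg fun h'' => h' h''.1]
    · rw [if_neg fun h' => h (Γ.symm h'), if_neg fun h' => h h'.2]

theorem wd_eq (w : Mod.Weights Γ col M) (V : PMod k Γ) (t : S) :
    wd col w.η V t = dv w V t := rfl

theorem wker_eq (w : Mod.Weights Γ col M) (V : PMod k Γ) (t : S) :
    wker col w.η V t = kapj w V t := rfl

theorem Cw_eq (ω : List S) (V : PMod k Γ) : Cw col ω V = Fold.Cw col ω V := by
  induction ω generalizing V with
  | nil => rfl
  | cons s ω ih => exact ih _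

theorem fd_of {V : PMod k Γ} (h : V.FD) : FD V := fun x => by
  haveI := h
  infer_instance

theorem to_fd {V : PMod k Γ} (h : FD V) : V.FD := ⟨fun x => h x⟩

theorem kapj_isom (w : Mod.Weights Γ col M) {V W : PMod k Γ} (h : PMod.Isom V W)
    (hV : V.FD) (hW : W.FD) (r : S) : kapj w V r = kapj w W r := by
  have h1 := dv_C_self w V r
  have h2 := dv_C_self w W r
  have h3 := Fold.dv_isom w (h.C (col r)) r
  have h4 := Fold.dv_isom w h r
  have h5 := frc_congr w (fun x _ => PMod.dim_eq_of_isom h x) r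
  have h6 : ∑ t ∈ Finset.univ.erase r, gram M r t * dv w V t =
      ∑ t ∈ Finset.univ.erase r, gram M r t * dv w W t :=
    Finset.sum_congr rfl fun t _ => by rw [Fold.dv_isom w h t]
  linarith

section sys

variable (w : Mod.Weights Γ col M) {H : ArtinGroup M → ℤ → PMod k Γ} (hH : Fold.IsHSys M Γ col H)
include hH

theorem wout_eq {T : Finset S} {n : ℤ} {a : ArtinGroup M}
    (hD : (Fold.keyData w H).InD T n a) {r : S} (hr : r ∈ T) :
    wout col w.η T (H a n) r = (Fold.keyData w H).wext T n a r := by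
  have h1 := wd_C (of_fold w) (fd_of (hH.fd a n)) (T := T) hr
  have h2 := Fold.d_gen w hH hD hr
  rw [Fold.dv_isom w (Fold.step_isom w hH hD hr le_rfl) r] at h2
  rw [wker_eq] at h1
  simp only [wd_eq] at h1
  linarith

/-- along a reduced word -/
theorem word_tl {T : Finset S} {n : ℤ} {a : ArtinGroup M} (h : (Fold.keyData w H).Ext T n a)
    (hD : (Fold.keyData w H).InD T n a) {u : M.Group} (hu : u ∈ Spec.WP M T) :
    ∃ ω : List S, (∀ i ∈ ω, i ∈ T) ∧ M.toCoxeterSystem.IsReduced ω ∧
      M.toCoxeterSystem.wordProd ω = u ∧ (Fold.keyData w H).Ext T n (a * Spec.tl M u) ∧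
      (Fold.keyData w H).InD T n (a * Spec.tl M u) ∧
      PMod.Isom (H (a * Spec.tl M u) n) (Fold.Cw col ω (H a n)) ∧
      ∀ r, (Fold.keyData w H).wext T n (a * Spec.tl M u) r = (Fold.keyData w H).wext T n a r := by
  obtain ⟨ω, h1, h2, h3⟩ := exists_reduced_of_mem_parab (cs := M.toCoxeterSystem)
    (T := (T : Set S)) hu
  have h4 : Spec.tl M u = Fold.pr M ω := by
    rw [← h3]
    exact Gar.lift_wordProd (Gar.isBraided_artinGen M) h2
  have h5 := Fold.word w hH h hD (ω := ω) (fun i hi => by exact_mod_cast h1 i hi)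
  refine ⟨ω, fun i hi => by exact_mod_cast h1 i hi, h2, h3, ?_, ?_, ?_, ?_⟩
  · rw [h4]; exact h5.1
  · rw [h4]; exact h5.2.1
  · rw [h4]; exact h5.2.2
  · intro r
    rw [h4]
    have key : ∀ (ω : List S) (a : ArtinGroup M), (∀ i ∈ ω, i ∈ T) →
        (Fold.keyData w H).wext T n (a * Fold.pr M ω) r = (Fold.keyData w H).wext T n a r := by
      intro ω
      induction ω with
      | nil => intro a _; rw [Fold.pr_nil, mul_one]
      | cons s ω ih =>
        intro a hω
        rw [Fold.pr_cons, ← mul_assoc, ih _ fun i hi => hω i (by simp [hi])]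
        unfold Spec.KeyData.wext
        congr 1
        refine Finset.sum_congr rfl fun t ht => ?_
        congr 1
        refine Fold.d_inv w hH n a ?_
        rintro rfl
        exact (Finset.mem_compl.1 ht) (hω _ (by simp))
    exact key ω a fun i hi => by exact_mod_cast h1 i hi

/-- the apartment function -/
noncomputable def ph (n : ℤ) (ρ : S → ℝ) (a : ArtinGroup M) (u : M.Group) (t : S) : ℝ :=
  (Fold.keyData w H).d n t (a * Spec.tl M u) - ρ t

theorem ph_inv (n : ℤ) (ρ : S → ℝ) (a : ArtinGroup M) (u : M.Group) {i j : S} (hij : i ≠ j) :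
    ph w (H := H) n ρ a (u * M.simple i) j = ph w (H := H) n ρ a u j := by
  unfold ph
  congr 1
  rcases Gar.len_mul_simple u i with h1 | h1
  · rw [show Spec.tl M (u * M.simple i) = Spec.tl M u * artinGen M i from
      Gar.tl_mul_simple (by omega), ← mul_assoc]
    exact Fold.d_inv w hH n _ hij
  · rw [show Spec.tl M u = Spec.tl M (u * M.simple i) * artinGen M i from
      Gar.tl_eq_mul_of_desc (by omega), ← mul_assoc]
    exact (Fold.d_inv w hH n _ hij).symm

/-- the kink -/
theorem kink_eq {T : Finset S} {n : ℤ} (ρ : S → ℝ) {a : ArtinGroup M}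
    (h : (Fold.keyData w H).Ext T n a) (hD : (Fold.keyData w H).InD T n a) {u : M.Group}
    (hu : u ∈ Spec.WP M T) {i : S} (hi : i ∈ T) (hlt : len M u < len M (u * M.simple i)) :
    KKR.kink M M.toCoxeterSystem T (ph w (H := H) n ρ a) u i =
      (Fold.keyData w H).slack T n ρ a i + kapj w (H (a * Spec.tl M u) n) i := by
  obtain ⟨ω, -, -, -, h1, h2, -, h4⟩ := word_tl w hH h hD hu
  have h5 := Fold.d_gen w hH h2 hi
  rw [h4, mul_assoc, ← show Spec.tl M (u * M.simple i) = Spec.tl M u * artinGen M i from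
      Gar.tl_mul_simple hlt] at h5
  unfold KKR.kink Spec.KeyData.slack
  have e1 : ∑ j ∈ T, gram M i j * ph w (H := H) n ρ a u j =
      ∑ j ∈ T, gram M i j * dv w (H (a * Spec.tl M u) n) j - ∑ j ∈ T, gram M i j * ρ j := by
    rw [← Finset.sum_sub_distrib]
    refine Finset.sum_congr rfl fun j _ => ?_
    unfold ph
    rw [mul_sub]
    rfl
  have e2 : ∑ j ∈ T, gram M i j * dv w (H (a * Spec.tl M u) n) j =
      2 * dv w (H (a * Spec.tl M u) n) i +
        ∑ j ∈ T.erase i, gram M i j * dv w (H (a * Spec.tl M u) n) j := by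
    rw [← Finset.add_sum_erase T _ hi, gram_self]
  have e3 : ∑ t ∈ T.erase i, - gram M i t * dv w (H (a * Spec.tl M u) n) t =
      - ∑ j ∈ T.erase i, gram M i j * dv w (H (a * Spec.tl M u) n) j := by
    rw [← Finset.sum_neg_distrib]
    exact Finset.sum_congr rfl fun _ _ => by ring
  rw [e1, e2]
  rw [e3] at h5
  have e4 : ph w (H := H) n ρ a (u * M.simple i) i =
      dv w (H (a * Spec.tl M (u * M.simple i)) n) i - ρ i := rfl
  have e5 : ph w (H := H) n ρ a u i = dv w (H (a * Spec.tl M u) n) i - ρ i := rfl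
  change ph w (H := H) n ρ a (u * M.simple i) i - _ + _ = _
  rw [e4, e5]
  linarith

theorem isSl {T : Finset S} {n : ℤ} {ρ : S → ℝ} {a : ArtinGroup M}
    (hcl : (Fold.keyData w H).IsClass T n ρ a) (hD : (Fold.keyData w H).InD T n a)
    (hnn : ∀ u ∈ Spec.WP M T, ∀ t ∈ T, ρ t ≤ (Fold.keyData w H).d n t (a * Spec.tl M u)) :
    KKR.IsSl M.toCoxeterSystem T (fun r => (Fold.keyData w H).slack T n ρ a r)
      (ph w (H := H) n ρ a) where
  inv u _ i _ j _ hij := ph_inv w hH n ρ a u hij
  slack u hu i hi := by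
    rcases Gar.len_mul_simple u i with h1 | h1
    · rw [kink_eq w hH ρ hcl.ext hD hu hi (by omega)]
      have := kapj_nonneg w (H (a * Spec.tl M u) n) i
      linarith
    · have hu2 : u * M.simple i ∈ Spec.WP M T :=
        mul_mem hu (Subgroup.subset_closure ⟨i, by exact_mod_cast hi, rfl⟩)
      have hlt : len M (u * M.simple i) < len M (u * M.simple i * M.simple i) := by
        rw [mul_assoc, Gar.simple_mul_self, mul_one]; omega
      have h2 := kink_eq w hH ρ hcl.ext hD hu2 hi hlt
      have h3 : KKR.kink M M.toCoxeterSystem T (ph w (H := H) n ρ a) (u * M.simple i) i =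
          KKR.kink M M.toCoxeterSystem T (ph w (H := H) n ρ a) u i := by
        unfold KKR.kink
        change ph w (H := H) n ρ a (u * M.simple i * M.simple i) i - _ + _ =
          ph w (H := H) n ρ a (u * M.simple i) i - _ + _
        rw [mul_assoc, Gar.simple_mul_self, mul_one]
        rw [← Finset.add_sum_erase T _ hi, ← Finset.add_sum_erase T _ hi, gram_self]
        have e : ∑ t ∈ T.erase i, gram M i t * ph w (H := H) n ρ a (u * M.simple i) t =
            ∑ t ∈ T.erase i, gram M i t * ph w (H := H) n ρ a u t :=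
          Finset.sum_congr rfl fun t ht => by
            rw [ph_inv w hH n ρ a u (Finset.ne_of_mem_erase ht).symm]
        rw [e]
        ring
      rw [← h3, h2]
      have := kapj_nonneg w (H (a * Spec.tl M (u * M.simple i)) n) i
      linarith
  h_nonneg i hi := hcl.slack_nonneg i hi
  nonneg u hu t ht := by
    unfold ph
    have := hnn u hu t ht
    linarith

/-- the field `KK` of `KeySys` -/
theorem KK_main (T : Finset S) (n : ℤ) (ρ : S → ℝ) (a : ArtinGroup M) (hT : Spherical M T)
    (hcl : (Fold.keyData w H).IsClass T n ρ a) (hD : (Fold.keyData w H).InD T n a)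
    (hconn : ∀ P : Finset S, P ⊆ T → P.Nonempty → P ≠ T →
      ∃ r ∈ P, ∃ s ∈ T, s ∉ P ∧ Spec.Adj M r s)
    (hnn : ∀ u ∈ Spec.WP M T, ∀ t ∈ T, ρ t ≤ (Fold.keyData w H).d n t (a * Spec.tl M u))
    (x : S) (hx : x ∈ T) (u : M.Group) (hu : u ∈ Spec.WP M T) (t : S) (ht : t ∈ T) (κ : ℝ)
    (hκ : 0 < κ)
    (hy : ∀ s ∈ T, (act M.toCoxeterSystem u⁻¹ (Finsupp.single s 1)) t = - κ * gram M x s)
    (h1 : (Fold.keyData w H).d n t (a * Spec.tl M u) = ρ t)
    (h2 : (Fold.keyData w H).d n t (a * Spec.tl M (M.simple x * u)) = ρ t) :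
    (Fold.keyData w H).d n x a = ρ x := by
  have hfin : Finite (parab M.toCoxeterSystem (T : Set S)) := hT
  have hc : Vin.Conn M T := fun A hA hne hneq => by
    obtain ⟨r, hr, s, hs, hsP, hrs⟩ := hconn A hA hne hneq
    exact ⟨r, hr, s, hs, hsP, hrs.2⟩
  have HS := isSl w hH hcl hD hnn
  have z1 : ph w (H := H) n ρ a u t = 0 := by unfold ph; rw [h1, sub_self]
  have z2 : ph w (H := H) n ρ a (M.toCoxeterSystem.simple x * u) t = 0 := by
    change ph w (H := H) n ρ a (M.simple x * u) t = 0
    unfold ph; rw [h2, sub_self]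
  -- (R0)
  have R0 := KKR.slack_eq_zero hc hfin HS hu ht hx hy z1 z2
  -- hypothesis of (L3)
  have hw := of_fold w
  have hfd : FD (H a n) := fd_of (hH.fd a n)
  have h1tl : a * Spec.tl M 1 = a := by
    rw [show Spec.tl M 1 = 1 from Gar.tl_one, mul_one]
  have L3 : ∀ E : Sub (H a n), E.Supp (fun s => ∃ t ∈ T, s = col t) →
      wsub col w.η E x = 0 := by
    refine wsub_eq_zero hw (hH.nilp a n) hx fun E hE => ?_
    have e1 : form M (Finsupp.single x 1) (vec T (wsub col w.η E)) = 0 := by
      refine KKR.form_eq_zero HS.isConv hu ht hx hκ hy z1 z2 (vec_supp T _) ?_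
      intro u' hu' t' ht'
      obtain ⟨ω, hω, hred, hprod, -, -, hiso, -⟩ := word_tl w hH hcl.ext hD hu'
      have h3 := lower_bound (cs := M.toCoxeterSystem) hw ρ hfd (T := T) (fun r hr => by
        have := hcl.slack_nonneg r hr
        unfold Spec.KeyData.slack at this
        rw [wout_eq w hH hD hr]
        linarith) hω hred E hE ht'
      rw [hprod, wd_eq, Cw_eq, ← Fold.dv_isom w hiso] at h3
      have h4 : Apt.grad T (ph w (H := H) n ρ a) 1 - vec T (wsub col w.η E) =
          vec T (fun t => wd col w.η (H a n) t - ρ t - wsub col w.η E t) := by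
        unfold Apt.grad vec
        rw [← Finset.sum_sub_distrib]
        refine Finset.sum_congr rfl fun j _ => ?_
        rw [← Finsupp.single_sub]
        congr 1
        unfold ph
        rw [h1tl]
        beta_reduce
        rw [wd_eq]
        rfl
      rw [h4]
      exact h3
    rw [Apt.form_single_left (vec_supp T _)] at e1
    rw [← e1]
    exact Finset.sum_congr rfl fun s hs => by rw [vec_apply _ hs]
  -- (R2)
  have R2 := KKR.value_eq_zero hfin HS.isConv HS.nonneg hx ?_
  · unfold ph at R2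
    rw [h1tl] at R2
    linarith
  · intro v hv r hr hlt hk
    obtain ⟨ω, hω, hred, hprod, -, -, hiso, -⟩ := word_tl w hH hcl.ext hD hv
    rw [kink_eq w hH ρ hcl.ext hD hv hr hlt, R0 r hr, zero_add,
      kapj_isom w hiso (hH.fd _ _) (by
        rw [← Cw_eq]
        exact to_fd (hfd.Cw col ω)), ← wker_eq, ← Cw_eq] at hk
    obtain ⟨E, hE, h5⟩ := exists_sub_of_ker (cs := M.toCoxeterSystem) hw hfd hω hred hr
    have h6 := h5 x
    rw [Finsupp.sub_apply, Finsupp.smul_apply, smul_eq_mul, vec_apply _ hx, L3 E hE, hprod] at h6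
    have h7 : NN (act M.toCoxeterSystem v (Finsupp.single r 1)) := length_lt_iff_NN.1 hlt
    have h8 := h7 x
    apply le_antisymm _ h8
    by_contra hcon
    push Not at hcon
    have := mul_pos hk hcon
    linarith

end sys

end Vale.Agent.P203.KK
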