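import Vale.Agent.P203.KK.Lower

/-! P203, KK-MOD, part 4: pulling back submodules along reflection functors (L2). -/

set_option linter.all false

namespace Vale.Agent.P203.KK

open Vale.Agent.P203.Mod Vale.Agent.P203.Mod.PMod Vale.Agent.P203.Cox Module

variable {S X Λ : Type} [Fintype X] [DecidableEq X] [Fintype Λ] [DecidableEq Λ] [DecidableEq S]
variable {k : Type} [Field k] {Γ : FGraph S X Λ}

/-- the spaces of the pull-back of a submodule of `C_s V` -/
noncomputable def pullE {V : PMod k Γ} (s : S) (E' : Sub (C s V)) (x : X) :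
    Submodule k (V.V x) :=
  if Γ.π x = s then ⨅ p : Γ.Nb x, ((E'.E p.1.1).comap (V.Cin s p.1.1)).comap (V.a x p.1.1 p.1.2)
  else (E'.E x).comap (V.Cin s x)

theorem mem_pullE_of_eq {V : PMod k Γ} {s : S} (E' : Sub (C s V)) {x : X} (h : Γ.π x = s)
    (v : V.V x) : v ∈ pullE s E' x ↔
      ∀ p : Γ.Nb x, V.Cin s p.1.1 (V.a x p.1.1 p.1.2 v) ∈ E'.E p.1.1 := by
  unfold pullE
  rw [if_pos h, Submodule.mem_iInf]
  rfl

theorem mem_pullE_of_ne {V : PMod k Γ} {s : S} (E' : Sub (C s V)) {x : X} (h : Γ.π x ≠ s)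
    (v : V.V x) : v ∈ pullE s E' x ↔ V.Cin s x v ∈ E'.E x := by
  unfold pullE
  rw [if_neg h]
  rfl

/-- the pull-back of a submodule of `C_s V` -/
noncomputable def Sub.pull {V : PMod k Γ} (s : S) (E' : Sub (C s V)) : Sub V where
  E x := pullE s E' x
  stab {x y l} h v hv := by
    by_cases hx : Γ.π x = s
    · have hy : Γ.π y ≠ s := fun hy => Γ.indep h (hx.trans hy.symm)
      rw [mem_pullE_of_ne E' hy]
      exact (mem_pullE_of_eq E' hx v).1 hv ⟨(y, l), h⟩
    · rw [mem_pullE_of_ne E' hx] at hv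
      have h1 := E'.stab h _ hv
      by_cases hy : Γ.π y = s
      · rw [mem_pullE_of_eq E' hy]
        intro p
        have hp : Γ.π p.1.1 ≠ s := fun hp => Γ.indep p.2 (hy.trans hp.symm)
        have h2 := E'.stab p.2 _ h1
        rw [C_a_of_ne V hp, C_a_of_eq V hy, V.Cnat_Cin hx, V.Cnat_Cpr hy,
          V.i_sg (Γ.symm h)] at h2
        exact h2
      · rw [mem_pullE_of_ne E' hy]
        rw [C_a_of_ne V hy, V.Cnat_Cin hx] at h1
        exact h1

theorem Sub.pull_supp {V : PMod k Γ} {s : S} {E' : Sub (C s V)} {T : S → Prop} (hs : T s)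
    (h : E'.Supp T) : (E'.pull s).Supp T := by
  intro x hx
  have hxs : Γ.π x ≠ s := fun h => hx (h ▸ hs)
  change pullE s E' x = ⊥
  rw [eq_bot_iff]
  intro v hv
  rw [mem_pullE_of_ne E' hxs, h x hx, Submodule.mem_bot] at hv
  rw [Submodule.mem_bot]
  exact (V.Cin_bij hxs).1 (by rw [hv, map_zero])

theorem Sub.finrank_pull_of_ne {V : PMod k Γ} {s : S} (E' : Sub (C s V)) {x : X}
    (hx : Γ.π x ≠ s) : finrank k ((E'.pull s).E x) = finrank k (E'.E x) := by
  let e := LinearEquiv.ofBijective (V.Cin s x) (V.Cin_bij hx)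
  have h1 : E'.E x = ((E'.pull s).E x).map e.toLinearMap := by
    ext u
    rw [Submodule.mem_map]
    constructor
    · intro hu
      obtain ⟨v, rfl⟩ := (V.Cin_bij hx).2 u
      exact ⟨v, (mem_pullE_of_ne E' hx v).2 hu, rfl⟩
    · rintro ⟨v, hv, rfl⟩
      exact (mem_pullE_of_ne E' hx v).1 hv
  rw [h1]
  exact (LinearEquiv.finrank_map_eq e _).symm

theorem Sub.finrank_pull_of_eq {V : PMod k Γ} (hV : FD V) {s : S} (E' : Sub (C s V)) {x : X}
    (hx : Γ.π x = s) :
    ∑ p : Γ.Nb x, finrank k ((E'.pull s).E p.1.1) + finrank k (LinearMap.ker (V.j x)) ≤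
      finrank k (E'.E x) + finrank k ((E'.pull s).E x) := by
  have hfd := hV
  unfold FD at hfd
  have hfdC := hV.C s
  unfold FD at hfdC
  have hne : ∀ p : Γ.Nb x, Γ.π p.1.1 ≠ s := fun p hp => Γ.indep p.2 (hx.trans hp.symm)
  -- the space of families
  let P := (p : Γ.Nb x) → ((E'.pull s).E p.1.1)
  let inc : P →ₗ[k] V.N x := LinearMap.pi fun p => ((E'.pull s).E p.1.1).subtype ∘ₗ
    LinearMap.proj p
  have hinc : ∀ (n : P) (p : Γ.Nb x), inc n p = (n p : V.V p.1.1) := fun _ _ => rfl
  have hinj : Function.Injective inc := by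
    intro n n' h
    funext p
    exact Subtype.ext (congrFun h p)
  let f : P →ₗ[k] (C s V).V x := V.Cpr s x ∘ₗ inc
  have hf : ∀ n, f n ∈ E'.E x := by
    intro n
    have h1 : V.Cpr s x (inc n) =
        ∑ p : Γ.Nb x, (C s V).a p.1.1 x p.1.2 (V.Cin s p.1.1 (inc n p)) := by
      have h2 : ∀ p : Γ.Nb x, (C s V).a p.1.1 x p.1.2 (V.Cin s p.1.1 (inc n p)) =
          V.Cpr s x (V.sg p.1.1 x p.1.2 (inc n p)) := by
        intro p
        rw [C_a_of_eq V hx, V.Cnat_Cin (hne p)]
      simp only [h2]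
      rw [← map_sum, V.sum_sg]
    change V.Cpr s x (inc n) ∈ E'.E x
    rw [h1]
    refine Submodule.sum_mem _ fun p _ => ?_
    exact E'.stab (Γ.symm p.2) _ ((mem_pullE_of_ne E' (hne p) _).1 (n p).2)
  -- the map from `E x`
  let g : (E'.pull s).E x →ₗ[k] P := LinearMap.pi fun p =>
    ((V.a x p.1.1 p.1.2) ∘ₗ ((E'.pull s).E x).subtype).codRestrict _
      (fun v => (E'.pull s).stab p.2 _ v.2)
  have hg : ∀ v, inc (g v) = V.j x (v : V.V x) := fun v => rfl
  have e1 : LinearMap.ker f = LinearMap.range g := by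
    ext n
    rw [LinearMap.mem_ker, LinearMap.mem_range]
    change V.Cpr s x (inc n) = 0 ↔ _
    rw [V.Cpr_eq_zero hx]
    constructor
    · rintro ⟨u, hu⟩
      have hu' : u ∈ (E'.pull s).E x := by
        refine (mem_pullE_of_eq E' hx u).2 fun p => ?_
        have h3 : V.a x p.1.1 p.1.2 u = inc n p := congrFun hu p
        rw [h3]
        exact (mem_pullE_of_ne E' (hne p) _).1 (n p).2
      exact ⟨⟨u, hu'⟩, hinj (by rw [hg]; exact hu)⟩
    · rintro ⟨v, rfl⟩
      exact ⟨v, (hg v).symm⟩
  have e2 := LinearMap.finrank_range_add_finrank_ker f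
  have e3 := LinearMap.finrank_range_add_finrank_ker g
  have e4 : finrank k (LinearMap.range f) ≤ finrank k (E'.E x) := by
    apply Submodule.finrank_mono
    rintro _ ⟨n, rfl⟩
    exact hf n
  have e5 : finrank k (LinearMap.ker (V.j x)) ≤ finrank k (LinearMap.ker g) := by
    have hle : ∀ v ∈ LinearMap.ker (V.j x), v ∈ (E'.pull s).E x := by
      intro v hv
      refine (mem_pullE_of_eq E' hx v).2 fun p => ?_
      have : V.a x p.1.1 p.1.2 v = 0 := congrFun hv p
      rw [this, map_zero]
      exact Submodule.zero_mem _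
    let φ : LinearMap.ker (V.j x) →ₗ[k] LinearMap.ker g :=
      { toFun := fun v => ⟨⟨v.1, hle v.1 v.2⟩, by
          rw [LinearMap.mem_ker]
          apply hinj
          rw [hg, map_zero]
          exact v.2⟩
        map_add' := fun _ _ => rfl
        map_smul' := fun _ _ => rfl }
    refine LinearMap.finrank_le_finrank_of_injective (f := φ) ?_
    intro v w h
    exact Subtype.ext (congrArg (fun z => ((z : LinearMap.ker g) : (E'.pull s).E x).1) h)
  have e6 : finrank k P = ∑ p : Γ.Nb x, finrank k ((E'.pull s).E p.1.1) :=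
    Module.finrank_pi_fintype k
  rw [e1] at e2
  rw [e6] at e2
  omega

section weights

variable {B : Type} [Fintype B] [DecidableEq B] {M : CoxeterMatrix B} {c : B → S} {η : X → ℝ}

theorem wsub_pull_of_ne (hw : Weights Γ M c η) {V : PMod k Γ} {s t : B} (E' : Sub (C (c s) V))
    (h : t ≠ s) : wsub c η (E'.pull (c s)) t = wsub c η E' t := by
  unfold wsub
  refine ws_congr fun x hx => ?_
  rw [E'.finrank_pull_of_ne]
  intro h'
  exact h (hw.inj (hx.symm.trans h'))

open Classical in
theorem wsub_out_zero {V : PMod k Γ} {T : Finset B} (E : Sub V)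
    (hE : E.Supp (fun s => ∃ t ∈ T, s = c t)) (r : B) :
    out Γ c T η (fun x => (finrank k (E.E x) : ℝ)) r = 0 := by
  unfold out ws
  refine Finset.sum_eq_zero fun x _ => ?_
  split_ifs
  · have : ∑ p : Γ.Nb x, (if Over Γ c T p.1.1 then 0 else (finrank k (E.E p.1.1) : ℝ)) = 0 := by
      refine Finset.sum_eq_zero fun p _ => ?_
      split_ifs with h
      · rfl
      · rw [hE p.1.1 (fun ⟨t, ht, h'⟩ => h ⟨t, ht, h'⟩)]
        simp
    beta_reduce
    rw [this, mul_zero]
  · rfl

/-- the dimension vector of the pull-back -/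
theorem vec_pull (hw : Weights Γ M c η) {V : PMod k Γ} (hV : FD V) {T : Finset B} {s : B}
    (hs : s ∈ T) (E' : Sub (C (c s) V)) (hE' : E'.Supp (fun s => ∃ t ∈ T, s = c t))
    (cs : CoxeterSystem M (M.Group)) :
    ∃ κ : ℝ, 0 ≤ κ ∧ vec T (wsub c η (E'.pull (c s))) =
      act cs (cs.simple s) (vec T (wsub c η E')) + κ • Finsupp.single s 1 := by
  have hsupp : (E'.pull (c s)).Supp (fun s => ∃ t ∈ T, s = c t) :=
    Sub.pull_supp (T := fun s => ∃ t ∈ T, s = c t) ⟨s, hs, rfl⟩ hE'
  have h1 : ∑ t ∈ T.erase s, - gram M s t * wsub c η E' t ≤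
      wsub c η E' s + wsub c η (E'.pull (c s)) s := by
    have h2 := ws_nb hw hs (fun x => (finrank k ((E'.pull (c s)).E x) : ℝ))
    rw [wsub_out_zero (η := η) (E'.pull (c s)) hsupp s, zero_add] at h2
    have h3 : ∑ t ∈ T.erase s, - gram M s t *
        ws Γ η (fun x => (finrank k ((E'.pull (c s)).E x) : ℝ)) (c t) =
        ∑ t ∈ T.erase s, - gram M s t * wsub c η E' t := by
      refine Finset.sum_congr rfl fun t ht => ?_
      have := wsub_pull_of_ne (η := η) hw E' (Finset.mem_erase.1 ht).1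
      unfold wsub at this ⊢
      rw [this]
    rw [← h3, ← h2]
    unfold wsub
    rw [← ws_add]
    refine ws_le hw.pos fun x hx => ?_
    have h4 := E'.finrank_pull_of_eq hV hx
    have h5 : ∑ p : Γ.Nb x, finrank k ((E'.pull (c s)).E p.1.1) ≤
      finrank k (E'.E x) + finrank k ((E'.pull (c s)).E x) := by omega
    exact_mod_cast h5
  refine ⟨wsub c η E' s + wsub c η (E'.pull (c s)) s -
    ∑ t ∈ T.erase s, - gram M s t * wsub c η E' t, by linarith, ?_⟩
  rw [act_simple, Apt.form_single_left (vec_supp T _)]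
  have e : ∑ j ∈ T, gram M s j * vec T (wsub c η E') j = ∑ j ∈ T, gram M s j * wsub c η E' j :=
    Finset.sum_congr rfl fun j hj => by rw [vec_apply _ hj]
  have e2 : ∑ j ∈ T, gram M s j * wsub c η E' j =
      2 * wsub c η E' s + ∑ j ∈ T.erase s, gram M s j * wsub c η E' j := by
    rw [← Finset.add_sum_erase T _ hs, gram_self]
  have e4 : ∑ t ∈ T.erase s, - gram M s t * wsub c η E' t =
      - ∑ j ∈ T.erase s, gram M s j * wsub c η E' j := by
    rw [← Finset.sum_neg_distrib]
    exact Finset.sum_congr rfl fun _ _ => by ring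
  rw [e, e2, e4]
  ext j
  simp only [Finsupp.coe_add, Finsupp.coe_sub, Finsupp.coe_smul, Pi.add_apply, Pi.sub_apply,
    Pi.smul_apply, smul_eq_mul]
  by_cases hj : j ∈ T
  · rw [vec_apply _ hj, vec_apply _ hj]
    by_cases hjs : j = s
    · subst hjs
      rw [Finsupp.single_eq_same]
      ring
    · rw [Finsupp.single_eq_of_ne hjs, wsub_pull_of_ne hw E' hjs]
      ring
  · have hjs : j ≠ s := by rintro rfl; exact hj hs
    rw [vec_supp T _ j hj, vec_supp T _ j hj, Finsupp.single_eq_of_ne hjs]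
    ring

variable {cs : CoxeterSystem M (M.Group)}

/-- pull-back along a reduced word -/
theorem exists_pull (hw : Weights Γ M c η) {T : Finset B} {V : PMod k Γ} (hV : FD V)
    (ω : List B) : (∀ s ∈ ω, s ∈ T) → cs.IsReduced ω →
      ∀ E' : Sub (Cw c ω V), E'.Supp (fun s => ∃ t ∈ T, s = c t) →
      ∃ E : Sub V, E.Supp (fun s => ∃ t ∈ T, s = c t) ∧
        NN (vec T (wsub c η E) - act cs (cs.wordProd ω) (vec T (wsub c η E'))) := by
  induction ω using List.reverseRecOn with
  | nil =>
    intro _ _ E' hE'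
    refine ⟨E', hE', ?_⟩
    rw [cs.wordProd_nil, act_one_apply]
    intro i
    have : vec T (wsub c η E') - vec T (wsub c η E') = 0 := sub_self _
    exact (congrArg (fun v : VSp B => v i) this).ge
  | append_singleton ω s ih =>
    intro hω hred
    have hs : s ∈ T := hω s (by simp)
    have hω' : ∀ t ∈ ω, t ∈ T := fun t ht => hω t (by simp [ht])
    have hred' : cs.IsReduced ω := by
      have := hred.take ω.length
      rwa [List.take_left] at this
    rw [Cw_concat]
    intro E' hE'
    obtain ⟨κ, hκ, h1⟩ := vec_pull hw (hV.Cw c ω) hs E' hE' cs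
    obtain ⟨E, hE, h2⟩ := ih hω' hred' (E'.pull (c s))
      (Sub.pull_supp (T := fun s => ∃ t ∈ T, s = c t) ⟨s, hs, rfl⟩ hE')
    refine ⟨E, hE, ?_⟩
    rw [h1, map_add, map_smul, ← act_mul_apply] at h2
    have h3 : cs.wordProd (ω ++ [s]) = cs.wordProd ω * cs.simple s := by
      rw [cs.wordProd_append]; simp
    rw [h3]
    have h4 : NN (act cs (cs.wordProd ω) (Finsupp.single s 1)) := by
      refine length_lt_iff_NN.1 ?_
      have l1 : cs.length (cs.wordProd (ω ++ [s])) = (ω ++ [s]).length := hred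
      have l2 : cs.length (cs.wordProd ω) = ω.length := hred'
      rw [← h3, l1, l2, List.length_append, List.length_singleton]
      omega
    have h5 := h2.add (h4.smul hκ)
    have e : ∀ a b d : VSp B, a - (b + d) + d = a - b := fun a b d => by abel
    rwa [e] at h5

/-- the submodule `ker j` over one colour -/
noncomputable def kerSub (V : PMod k Γ) (s : S) : Sub V where
  E x := if Γ.π x = s then LinearMap.ker (V.j x) else ⊥
  stab {x y l} h v hv := by
    by_cases hx : Γ.π x = s
    · rw [if_pos hx] at hv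
      have : V.a x y l v = 0 := congrFun hv ⟨(y, l), h⟩
      rw [this]
      exact Submodule.zero_mem _
    · rw [if_neg hx, Submodule.mem_bot] at hv
      rw [hv, map_zero]
      exact Submodule.zero_mem _

/-- (L2): kernels of `j` on `C_ω V` come from submodules of `V` -/
theorem exists_sub_of_ker (hw : Weights Γ M c η) {T : Finset B} {V : PMod k Γ} (hV : FD V)
    {ω : List B} (hω : ∀ s ∈ ω, s ∈ T) (hred : cs.IsReduced ω) {r : B} (hr : r ∈ T) :
    ∃ E : Sub V, E.Supp (fun s => ∃ t ∈ T, s = c t) ∧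
      NN (vec T (wsub c η E) -
        wker c η (Cw c ω V) r • act cs (cs.wordProd ω) (Finsupp.single r 1)) := by
  obtain ⟨E, hE, h1⟩ := exists_pull (cs := cs) hw hV ω hω hred (kerSub (Cw c ω V) (c r)) (by
    intro x hx
    have : Γ.π x ≠ c r := fun h => hx ⟨r, hr, h⟩
    change (if Γ.π x = c r then _ else ⊥) = _
    rw [if_neg this])
  refine ⟨E, hE, ?_⟩
  have h2 : vec T (wsub c η (kerSub (Cw c ω V) (c r))) =
      wker c η (Cw c ω V) r • Finsupp.single r 1 := by
    ext j
    rw [Finsupp.smul_apply, smul_eq_mul]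
    by_cases hj : j ∈ T
    · rw [vec_apply _ hj]
      by_cases hjr : j = r
      · subst hjr
        rw [Finsupp.single_eq_same, mul_one]
        unfold wsub wker
        refine ws_congr fun x hx => ?_
        have : (kerSub (Cw c ω V) (c j)).E x = LinearMap.ker ((Cw c ω V).j x) := by
          change (if Γ.π x = c j then _ else ⊥) = _
          rw [if_pos hx]
        rw [this]
      · rw [Finsupp.single_eq_of_ne hjr, mul_zero]
        unfold wsub ws
        refine Finset.sum_eq_zero fun x _ => ?_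
        split_ifs with hx
        · have : (kerSub (Cw c ω V) (c r)).E x = ⊥ := by
            change (if Γ.π x = c r then _ else ⊥) = _
            rw [if_neg]
            intro h
            exact hjr (hw.inj (hx.symm.trans h))
          beta_reduce
          rw [this]
          simp
        · rfl
    · have hjr : j ≠ r := by rintro rfl; exact hj hr
      rw [vec_supp T _ j hj, Finsupp.single_eq_of_ne hjr, mul_zero]
  rw [h2, map_smul] at h1
  exact h1

end weights

end Vale.Agent.P203.KK
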