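import Vale.Agent.P203.KK.Pull

/-! P203, KK-MOD, part 5: radical filtrations (L3). -/

set_option linter.all false

namespace Vale.Agent.P203.KK

open Vale.Agent.P203.Mod Vale.Agent.P203.Mod.PMod Vale.Agent.P203.Cox Module

variable {S X Λ : Type} [Fintype X] [DecidableEq X] [Fintype Λ] [DecidableEq Λ] [DecidableEq S]
variable {k : Type} [Field k] {Γ : FGraph S X Λ}

/-- the spaces of the radical of a submodule -/
noncomputable def radE {V : PMod k Γ} (E : Sub V) (y : X) : Submodule k (V.V y) :=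
  ⨆ p : Γ.Nb y, (E.E p.1.1).map (V.a p.1.1 y p.1.2)

theorem radE_le {V : PMod k Γ} (E : Sub V) (y : X) : radE E y ≤ E.E y := by
  unfold radE
  refine iSup_le fun p => ?_
  rw [Submodule.map_le_iff_le_comap]
  intro v hv
  exact E.stab (Γ.symm p.2) v hv

theorem mem_radE {V : PMod k Γ} (E : Sub V) {x y : X} {l : Λ} (h : Γ.adj x y l = true)
    {v : V.V x} (hv : v ∈ E.E x) : V.a x y l v ∈ radE E y := by
  unfold radE
  have h1 := le_iSup (fun p : Γ.Nb y => (E.E p.1.1).map (V.a p.1.1 y p.1.2))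
    (⟨(x, l), Γ.symm h⟩ : Γ.Nb y)
  exact h1 (Submodule.mem_map_of_mem hv)

/-- the radical -/
noncomputable def Sub.rad {V : PMod k Γ} (E : Sub V) : Sub V where
  E y := radE E y
  stab h v hv := mem_radE E h (radE_le E _ hv)

/-- the radical, except over one colour -/
noncomputable def Sub.radx {V : PMod k Γ} (E : Sub V) (s : S) : Sub V where
  E y := if Γ.π y = s then E.E y else radE E y
  stab {y z l} h v hv := by
    have h1 : v ∈ E.E y := by
      split_ifs at hv
      · exact hv
      · exact radE_le E _ hv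
    have h2 := mem_radE E h h1
    split_ifs
    · exact radE_le E _ h2
    · exact h2

theorem Sub.rad_supp {V : PMod k Γ} {E : Sub V} {T : S → Prop} (h : E.Supp T) :
    E.rad.Supp T := fun x hx => by
  rw [eq_bot_iff, ← h x hx]
  exact radE_le E x

theorem Sub.radx_supp {V : PMod k Γ} {E : Sub V} {T : S → Prop} (h : E.Supp T) (s : S) :
    (E.radx s).Supp T := fun x hx => by
  rw [eq_bot_iff, ← h x hx]
  change (if Γ.π x = s then E.E x else radE E x) ≤ E.E x
  split_ifs
  · exact le_rfl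
  · exact radE_le E x

section weights

variable {B : Type} [Fintype B] [DecidableEq B] {M : CoxeterMatrix B} {c : B → S} {η : X → ℝ}

theorem wsub_radx_self {V : PMod k Γ} (E : Sub V) (x : B) :
    wsub c η (E.radx (c x)) x = wsub c η E x := by
  unfold wsub
  refine ws_congr fun y hy => ?_
  change (finrank k (↥(if Γ.π y = c x then E.E y else radE E y)) : ℝ) = _
  rw [if_pos hy]

theorem wsub_radx_of_ne (hw : Weights Γ M c η) {V : PMod k Γ} (E : Sub V) {x s : B} (h : s ≠ x) :
    wsub c η (E.radx (c x)) s = wsub c η E.rad s := by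
  unfold wsub
  refine ws_congr fun y hy => ?_
  change (finrank k (↥(if Γ.π y = c x then E.E y else radE E y)) : ℝ) = _
  rw [if_neg fun h' => h (hw.inj (hy.symm.trans h'))]
  rfl

/-- one step of (L3) -/
theorem wsub_rad (hw : Weights Γ M c η) {T : Finset B} {V : PMod k Γ} {x : B} (hx : x ∈ T)
    (h : ∀ E : Sub V, E.Supp (fun s => ∃ t ∈ T, s = c t) →
      ∑ s ∈ T, gram M x s * wsub c η E s = 0)
    (E : Sub V) (hE : E.Supp (fun s => ∃ t ∈ T, s = c t)) :
    wsub c η E.rad x = wsub c η E x := by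
  have h1 := h E.rad (Sub.rad_supp hE)
  have h2 := h (E.radx (c x)) (Sub.radx_supp hE _)
  rw [← Finset.add_sum_erase T _ hx] at h1 h2
  have h3 : ∑ s ∈ T.erase x, gram M x s * wsub c η (E.radx (c x)) s =
      ∑ s ∈ T.erase x, gram M x s * wsub c η E.rad s :=
    Finset.sum_congr rfl fun s hs => by rw [wsub_radx_of_ne hw E (Finset.mem_erase.1 hs).1]
  rw [h3, wsub_radx_self, gram_self] at h2
  rw [gram_self] at h1
  linarith

/-- (L3) -/
theorem wsub_eq_zero (hw : Weights Γ M c η) {T : Finset B} {V : PMod k Γ} (hn : V.Nilp)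
    {x : B} (hx : x ∈ T)
    (h : ∀ E : Sub V, E.Supp (fun s => ∃ t ∈ T, s = c t) →
      ∑ s ∈ T, gram M x s * wsub c η E s = 0)
    (E : Sub V) (hE : E.Supp (fun s => ∃ t ∈ T, s = c t)) : wsub c η E x = 0 := by
  obtain ⟨F, L, hF0, hFL, hF⟩ := nilp_iff_filtration.1 hn
  have key : ∀ n : ℕ, ∃ E' : Sub V, E'.Supp (fun s => ∃ t ∈ T, s = c t) ∧
      wsub c η E' x = wsub c η E x ∧ ∀ y, E'.E y ≤ F n y := by
    intro n
    induction n with
    | zero => exact ⟨E, hE, rfl, fun y => by rw [hF0]; exact le_top⟩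
    | succ n ih =>
      obtain ⟨E', h1, h2, h3⟩ := ih
      refine ⟨E'.rad, Sub.rad_supp h1, (wsub_rad hw hx h E' h1).trans h2, fun y => ?_⟩
      change radE E' y ≤ F (n + 1) y
      unfold radE
      refine iSup_le fun p => ?_
      rw [Submodule.map_le_iff_le_comap]
      intro v hv
      exact hF n _ _ _ (Γ.symm p.2) v (h3 _ hv)
  obtain ⟨E', h1, h2, h3⟩ := key L
  rw [← h2]
  unfold wsub ws
  refine Finset.sum_eq_zero fun y _ => ?_
  have : E'.E y = ⊥ := by
    rw [eq_bot_iff, ← hFL y]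
    exact h3 y
  beta_reduce
  rw [this]
  simp

end weights

end Vale.Agent.P203.KK
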