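import Vale.Agent.P203.Mod.CFun
import Vale.Agent.P203.Mod.Kill

/-! P203, KK-MOD, part 1: finite dimensionality, dimension of `C_s V`, submodules, quotients,
words of reflection functors. -/

set_option linter.all false

namespace Vale.Agent.P203.KK

open Vale.Agent.P203.Mod Vale.Agent.P203.Mod.PMod Module

variable {S X Λ : Type} [Fintype X] [DecidableEq X] [Fintype Λ] [DecidableEq Λ] [DecidableEq S]
variable {k : Type} [Field k] {Γ : FGraph S X Λ}

/-- all the spaces of `V` are finite dimensional -/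
def FD (V : PMod k Γ) : Prop := ∀ x, FiniteDimensional k (V.V x)

theorem FD.N {V : PMod k Γ} (h : FD V) (x : X) : FiniteDimensional k (V.N x) := by
  have := h
  unfold FD at this
  infer_instance

theorem FD.C {V : PMod k Γ} (h : FD V) (s : S) : FD (C s V) := by
  intro x
  have h1 := h.N x
  have h2 := h x
  exact FiniteDimensional.of_surjective (V.Cmk s x) (V.Cmk_surj s x)

theorem finrank_N {V : PMod k Γ} (h : FD V) (x : X) :
    finrank k (V.N x) = ∑ p : Γ.Nb x, finrank k (V.V p.1.1) := by
  have h1 := h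
  unfold FD at h1
  exact Module.finrank_pi_fintype k

theorem finrank_C_of_eq {V : PMod k Γ} (h : FD V) {s : S} {x : X} (hx : Γ.π x = s) :
    finrank k ((C s V).V x) + finrank k (V.V x) =
      finrank k (V.N x) + finrank k (LinearMap.ker (V.j x)) := by
  have h1 := h.N x
  have h2 := h x
  have e1 := LinearMap.finrank_range_add_finrank_ker (V.Cpr s x)
  have e2 := LinearMap.finrank_range_add_finrank_ker (V.j x)
  have e3 : LinearMap.ker (V.Cpr s x) = LinearMap.range (V.j x) := by
    ext n
    rw [LinearMap.mem_ker, V.Cpr_eq_zero hx, LinearMap.mem_range]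
  have e4 : LinearMap.range (V.Cpr s x) = ⊤ := LinearMap.range_eq_top.2 (V.Cpr_surj hx)
  rw [e3, e4, finrank_top] at e1
  omega

theorem finrank_C_of_ne {V : PMod k Γ} {s : S} {x : X} (hx : Γ.π x ≠ s) :
    finrank k ((C s V).V x) = finrank k (V.V x) :=
  (LinearEquiv.ofBijective (V.Cin s x) (V.Cin_bij hx)).finrank_eq.symm

/-! ### Submodules and quotients -/

/-- submodules of `V` -/
structure Sub (V : PMod k Γ) where
  /-- the subspaces -/
  E : ∀ x, Submodule k (V.V x)
  stab : ∀ {x y l}, Γ.adj x y l = true → ∀ v ∈ E x, V.a x y l v ∈ E y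

/-- `E` is supported over the set of colours `T` -/
def Sub.Supp {V : PMod k Γ} (E : Sub V) (T : S → Prop) : Prop := ∀ x, ¬ T (Γ.π x) → E.E x = ⊥

/-- the quotient module -/
noncomputable def Sub.quot {V : PMod k Γ} (E : Sub V) : PMod k Γ where
  V x := V.V x ⧸ E.E x
  a x y l := if h : Γ.adj x y l = true then
    (E.E x).mapQ (E.E y) (V.a x y l) (fun v hv => E.stab h v hv) else 0
  rel x v := by
    obtain ⟨v, rfl⟩ := (E.E x).mkQ_surjective v
    have h1 : ∀ p : Γ.Nb x, (if h : Γ.adj p.1.1 x p.1.2 = true then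
        (E.E p.1.1).mapQ (E.E x) (V.a p.1.1 x p.1.2) (fun v hv => E.stab h v hv) else 0)
        ((if h : Γ.adj x p.1.1 p.1.2 = true then
        (E.E x).mapQ (E.E p.1.1) (V.a x p.1.1 p.1.2) (fun v hv => E.stab h v hv) else 0)
          ((E.E x).mkQ v)) = (E.E x).mkQ (V.a p.1.1 x p.1.2 (V.a x p.1.1 p.1.2 v)) := by
      intro p
      rw [dif_pos (Γ.symm p.2), dif_pos p.2]
      rfl
    rw [Finset.sum_congr rfl fun p _ => h1 p, ← map_sum, V.rel x v, map_zero]

/-- the quotient map -/
noncomputable def Sub.proj {V : PMod k Γ} (E : Sub V) : Hom V E.quot where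
  f x := (E.E x).mkQ
  comm {x y l} h v := by
    change (E.E y).mkQ (V.a x y l v) = (if h : Γ.adj x y l = true then
      (E.E x).mapQ (E.E y) (V.a x y l) (fun v hv => E.stab h v hv) else 0) ((E.E x).mkQ v)
    rw [dif_pos h]
    rfl

theorem Sub.proj_surj {V : PMod k Γ} (E : Sub V) : E.proj.Surj := fun x =>
  (E.E x).mkQ_surjective

theorem Sub.fd_quot {V : PMod k Γ} (h : FD V) (E : Sub V) : FD E.quot := fun x => by
  have := h x
  exact FiniteDimensional.of_surjective (E.proj.f x) (E.proj_surj x)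

theorem Sub.finrank_quot {V : PMod k Γ} (h : FD V) (E : Sub V) (x : X) :
    finrank k (E.quot.V x) + finrank k (E.E x) = finrank k (V.V x) := by
  have := h x
  exact (E.E x).finrank_quotient_add_finrank

/-! ### Words of reflection functors -/

section words

variable {B : Type} (c : B → S)

/-- `Cw c [s₁, …, s_m] V = C_{s_m} (… (C_{s₁} V))` -/
def Cw : List B → PMod k Γ → PMod k Γ
  | [], V => V
  | s :: ω, V => Cw ω (C (c s) V)

theorem Cw_nil (V : PMod k Γ) : Cw c [] V = V := rfl

theorem Cw_cons (s : B) (ω : List B) (V : PMod k Γ) : Cw c (s :: ω) V = Cw c ω (C (c s) V) := rfl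

theorem Cw_append (ω ω' : List B) (V : PMod k Γ) :
    Cw c (ω ++ ω') V = Cw c ω' (Cw c ω V) := by
  induction ω generalizing V with
  | nil => rfl
  | cons s ω ih => exact ih _

theorem Cw_concat (ω : List B) (s : B) (V : PMod k Γ) :
    Cw c (ω ++ [s]) V = C (c s) (Cw c ω V) := by
  rw [Cw_append]; rfl

theorem FD.Cw {V : PMod k Γ} (h : FD V) (ω : List B) : FD (Cw c ω V) := by
  induction ω generalizing V with
  | nil => exact h
  | cons s ω ih => exact ih (h.C _)

theorem Cw_surj {V W : PMod k Γ} (ω : List B) (h : ∃ f : Hom V W, f.Surj) :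
    ∃ f : Hom (KK.Cw c ω V) (KK.Cw c ω W), f.Surj := by
  induction ω generalizing V W with
  | nil => exact h
  | cons s ω ih =>
    obtain ⟨f, hf⟩ := h
    exact ih ⟨Cmap _ f, Cmap_surj _ hf⟩

theorem Cw_finrank_le {V W : PMod k Γ} (hV : FD V) (ω : List B) (h : ∃ f : Hom V W, f.Surj)
    (x : X) : finrank k ((KK.Cw c ω W).V x) ≤ finrank k ((KK.Cw c ω V).V x) := by
  obtain ⟨f, hf⟩ := Cw_surj c ω h
  have := hV.Cw c ω x
  exact LinearMap.finrank_le_finrank_of_surjective (hf x)

end words

end Vale.Agent.P203.KK
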