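import Vale.Agent.P203.KK.Sub
import Vale.Agent.P203.Apt.Convex

/-! P203, KK-MOD, part 2: weighted dimension vectors. -/

set_option linter.all false

namespace Vale.Agent.P203.KK

open Vale.Agent.P203.Mod Vale.Agent.P203.Mod.PMod Vale.Agent.P203.Cox Module

variable {S X Λ : Type} [Fintype X] [DecidableEq X] [Fintype Λ] [DecidableEq Λ] [DecidableEq S]
variable {k : Type} [Field k] {Γ : FGraph S X Λ}

/-- weighted sum of `δ` over the fibre of the colour `s` -/
noncomputable def ws (Γ : FGraph S X Λ) (η δ : X → ℝ) (s : S) : ℝ :=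
  ∑ x, if Γ.π x = s then η x * δ x else 0

theorem ws_congr {η δ δ' : X → ℝ} {s : S} (h : ∀ x, Γ.π x = s → δ x = δ' x) :
    ws Γ η δ s = ws Γ η δ' s := by
  unfold ws
  refine Finset.sum_congr rfl fun x _ => ?_
  split_ifs with hx
  · rw [h x hx]
  · rfl

theorem ws_add (η δ δ' : X → ℝ) (s : S) :
    ws Γ η (fun x => δ x + δ' x) s = ws Γ η δ s + ws Γ η δ' s := by
  unfold ws
  rw [← Finset.sum_add_distrib]
  refine Finset.sum_congr rfl fun x _ => ?_
  split_ifs <;> ring

theorem ws_nonneg {η δ : X → ℝ} (hη : ∀ x, 0 < η x) (hδ : ∀ x, 0 ≤ δ x) (s : S) :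
    0 ≤ ws Γ η δ s := by
  unfold ws
  refine Finset.sum_nonneg fun x _ => ?_
  split_ifs
  · exact mul_nonneg (hη x).le (hδ x)
  · exact le_rfl

theorem ws_le {η δ δ' : X → ℝ} (hη : ∀ x, 0 < η x) {s : S} (h : ∀ x, Γ.π x = s → δ x ≤ δ' x) :
    ws Γ η δ s ≤ ws Γ η δ' s := by
  unfold ws
  refine Finset.sum_le_sum fun x _ => ?_
  split_ifs with hx
  · exact mul_le_mul_of_nonneg_left (h x hx) (hη x).le
  · exact le_rfl

/-- equality of weighted sums of comparable functions forces equality -/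
theorem eq_of_ws_eq {η δ δ' : X → ℝ} (hη : ∀ x, 0 < η x) {s : S}
    (h : ∀ x, Γ.π x = s → δ x ≤ δ' x) (he : ws Γ η δ s = ws Γ η δ' s) {x : X}
    (hx : Γ.π x = s) : δ x = δ' x := by
  unfold ws at he
  have h1 := (Finset.sum_eq_sum_iff_of_le (fun x _ => by
    split_ifs with hx
    · exact mul_le_mul_of_nonneg_left (h x hx) (hη x).le
    · exact le_rfl)).1 he x (Finset.mem_univ x)
  rw [if_pos hx, if_pos hx] at h1
  exact mul_left_cancel₀ (hη x).ne' h1

/-! ### Double counting of edges -/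

theorem sum_Nb (F : X → Λ → ℝ) (x : X) :
    ∑ p : Γ.Nb x, F p.1.1 p.1.2 = ∑ y, ∑ l, if Γ.adj x y l = true then F y l else 0 := by
  rw [← Fintype.sum_prod_type' (f := fun y l => if Γ.adj x y l = true then F y l else 0)]
  rw [← Finset.sum_filter]
  exact (Finset.sum_subtype (Finset.univ.filter fun p : X × Λ => Γ.adj x p.1 p.2 = true)
    (by simp) (fun p => F p.1 p.2)).symm

theorem sum_edges (f g : X → ℝ) :
    ∑ x, f x * ∑ p : Γ.Nb x, g p.1.1 = ∑ y, g y * ∑ p : Γ.Nb y, f p.1.1 := by
  have h1 : ∀ x, ∑ p : Γ.Nb x, g p.1.1 = ∑ y, ∑ l, if Γ.adj x y l = true then g y else 0 :=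
    fun x => sum_Nb (fun y _ => g y) x
  have h2 : ∀ y, ∑ p : Γ.Nb y, f p.1.1 = ∑ x, ∑ l, if Γ.adj y x l = true then f x else 0 :=
    fun y => sum_Nb (fun x _ => f x) y
  simp only [h1, h2, Finset.mul_sum]
  rw [Finset.sum_comm]
  refine Finset.sum_congr rfl fun y _ => Finset.sum_congr rfl fun x _ =>
    Finset.sum_congr rfl fun l _ => ?_
  by_cases h : Γ.adj x y l = true
  · rw [if_pos h, if_pos (Γ.symm h), mul_comm]
  · have h' : ¬ Γ.adj y x l = true := fun h' => h (Γ.symm h')
    rw [if_neg h, if_neg h', mul_zero, mul_zero]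

section weights

variable {B : Type} [Fintype B] [DecidableEq B] (M : CoxeterMatrix B) (c : B → S)

/-- positive weights on the vertices which are eigenvectors for the folding -/
structure Weights (Γ : FGraph S X Λ) (M : CoxeterMatrix B) (c : B → S) (η : X → ℝ) : Prop where
  inj : Function.Injective c
  pos : ∀ x, 0 < η x
  eig : ∀ s t, s ≠ t → ∀ y, Γ.π y = c t →
    ∑ p : Γ.Nb y, (if Γ.π p.1.1 = c s then η p.1.1 else 0) = - gram M s t * η y

/-- `x` lies over `T` -/
def Over (Γ : FGraph S X Λ) (c : B → S) (T : Finset B) (x : X) : Prop := ∃ t ∈ T, Γ.π x = c t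

open Classical in
/-- weighted number of edges, with multiplicities `δ`, from the fibre of `s` to the outside
of `T` -/
noncomputable def out (Γ : FGraph S X Λ) (c : B → S) (T : Finset B) (η δ : X → ℝ) (s : B) : ℝ :=
  ws Γ η (fun x => ∑ p : Γ.Nb x, if Over Γ c T p.1.1 then 0 else δ p.1.1) (c s)

variable {M c} {η : X → ℝ}

open Classical in
/-- the weighted number of neighbours of the fibre of `s ∈ T` -/
theorem ws_nb (hw : Weights Γ M c η) {T : Finset B} {s : B} (hs : s ∈ T) (δ : X → ℝ) :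
    ws Γ η (fun x => ∑ p : Γ.Nb x, δ p.1.1) (c s) =
      out Γ c T η δ s + ∑ t ∈ T.erase s, - gram M s t * ws Γ η δ (c t) := by
  have h0 : (fun x => ∑ p : Γ.Nb x, δ p.1.1) =
      fun x => (∑ p : Γ.Nb x, if Over Γ c T p.1.1 then 0 else δ p.1.1) +
        ∑ p : Γ.Nb x, if Over Γ c T p.1.1 then δ p.1.1 else 0 := by
    funext x
    rw [← Finset.sum_add_distrib]
    refine Finset.sum_congr rfl fun p _ => ?_
    split_ifs <;> ring
  rw [h0, ws_add]
  unfold out
  congr 1
  -- double counting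
  have h1 : ws Γ η (fun x => ∑ p : Γ.Nb x, if Over Γ c T p.1.1 then δ p.1.1 else 0) (c s) =
      ∑ y, (if Over Γ c T y then δ y else 0) *
        ∑ p : Γ.Nb y, (if Γ.π p.1.1 = c s then η p.1.1 else 0) := by
    rw [← sum_edges (fun x => if Γ.π x = c s then η x else 0)
      (fun y => if Over Γ c T y then δ y else 0)]
    unfold ws
    refine Finset.sum_congr rfl fun x _ => ?_
    split_ifs
    · rfl
    · rw [zero_mul]
  rw [h1]
  have h2 : ∀ y, (if Over Γ c T y then δ y else 0) *
      ∑ p : Γ.Nb y, (if Γ.π p.1.1 = c s then η p.1.1 else 0) =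
      ∑ t ∈ T.erase s, if Γ.π y = c t then - gram M s t * (η y * δ y) else 0 := by
    intro y
    by_cases hy : Over Γ c T y
    · obtain ⟨t, ht, hyt⟩ := hy
      rw [if_pos ⟨t, ht, hyt⟩]
      by_cases hts : t = s
      · subst hts
        have e1 : ∑ p : Γ.Nb y, (if Γ.π p.1.1 = c t then η p.1.1 else 0) = 0 := by
          refine Finset.sum_eq_zero fun p _ => ?_
          rw [if_neg]
          intro hp
          exact Γ.indep p.2 (hyt.trans hp.symm)
        rw [e1, mul_zero]
        symm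
        refine Finset.sum_eq_zero fun t' ht' => ?_
        rw [if_neg]
        intro h
        have := hw.inj (hyt.symm.trans h)
        exact (Finset.mem_erase.1 ht').1 this.symm
      · rw [hw.eig s t (Ne.symm hts) y hyt]
        rw [Finset.sum_eq_single_of_mem t (Finset.mem_erase.2 ⟨hts, ht⟩)]
        · rw [if_pos hyt]; ring
        · intro t' _ hne
          rw [if_neg]
          intro h
          exact hne (hw.inj (hyt.symm.trans h)).symm
    · rw [if_neg hy, zero_mul]
      symm
      refine Finset.sum_eq_zero fun t ht => ?_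
      rw [if_neg]
      intro h
      exact hy ⟨t, (Finset.mem_erase.1 ht).2, h⟩
  rw [Finset.sum_congr rfl fun y _ => h2 y, Finset.sum_comm]
  refine Finset.sum_congr rfl fun t _ => ?_
  unfold ws
  rw [Finset.mul_sum]
  refine Finset.sum_congr rfl fun y _ => ?_
  split_ifs
  · rfl
  · rw [mul_zero]

end weights

end Vale.Agent.P203.KK
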